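import Vale.Agent.P365.L1.Near2

/-!
# P365-T2, X-STAT (7): the pointwise static lemma (125's F3 / 629's (7))

General absorption profile `e x = -(W x).im`, static sites allowed, soft weights `α` in place of a
set of pairs.
-/

set_option linter.all false

namespace P365T2.StatF3

open Matrix Complex P365L
open scoped ComplexConjugate

variable {ι : Type*} [Fintype ι] [DecidableEq ι]
variable {A : Matrix ι ι ℝ} {W : ι → ℂ}

/-- absorption -/
def ev (W : ι → ℂ) (x : ι) : ℝ := -(W x).im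

theorem ev_pos (hW : ∀ x, (W x).im < 0) (x : ι) : 0 < ev W x := by
  unfold ev; linarith [hW x]

/-- half of the scattering matrix: `M = -(i/2) + G E` -/
noncomputable def Mo (A : Matrix ι ι ℝ) (W : ι → ℂ) : Matrix ι ι ℂ :=
  (-(I / 2)) • (1 : Matrix ι ι ℂ) + Gr A W * Ed W

theorem Ed_H : (Ed W)ᴴ = Ed W := by
  rw [Ed, Matrix.diagonal_conjTranspose]
  congr 1
  funext x
  simp

omit [DecidableEq ι] in
theorem aux_exp [DecidableEq ι] (c c' : ℂ) (h : c * c' = 1 / 4) (G H E : Matrix ι ι ℂ) :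
    (c • (1 : Matrix ι ι ℂ) + E * H) * E * (c' • (1 : Matrix ι ι ℂ) + G * E) =
      (1 / 4 : ℂ) • E + (c • (E * G * E) + c' • (E * H * E)) + E * (H * E * G) * E := by
  have h' : c' * c = 1 / 4 := by rw [mul_comm, h]
  simp only [Matrix.add_mul, Matrix.mul_add, Matrix.smul_mul, Matrix.mul_smul, Matrix.one_mul,
      Matrix.mul_one, smul_add, smul_smul, h, h', Matrix.mul_assoc]
  abel

/-- `M^* E M = E / 4` -/
theorem Mo_iso (hA : A.IsSymm) (hW : ∀ x, (W x).im < 0) :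
    (Mo A W)ᴴ * Ed W * Mo A W = (1 / 4 : ℂ) • Ed W := by
  have hw : (Gr A W)ᴴ * Ed W * Gr A W = (-(I / 2)) • (Gr A W - (Gr A W)ᴴ) := by
    have h := Ward hA hW
    rw [h, smul_smul]
    have hI : -(I / 2) * (2 * I) = 1 := by
      linear_combination -Complex.I_mul_I
    rw [hI, one_smul, Ed]
  have h1 : (Mo A W)ᴴ = (I / 2) • (1 : Matrix ι ι ℂ) + Ed W * (Gr A W)ᴴ := by
    have hs : star (-(I / 2) : ℂ) = I / 2 := by
      simp [Complex.conj_I]
      ring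
    rw [Mo, Matrix.conjTranspose_add, Matrix.conjTranspose_smul, Matrix.conjTranspose_one,
      Matrix.conjTranspose_mul, Ed_H, hs]
  have hI : (I / 2) * (-(I / 2)) = (1 / 4 : ℂ) := by
    linear_combination (-1 / 4) * Complex.I_mul_I
  have h2 := aux_exp (I / 2) (-(I / 2)) hI (Gr A W) ((Gr A W)ᴴ) (Ed W)
  have h3 : (I / 2) • (Ed W * Gr A W * Ed W) + (-(I / 2)) • (Ed W * (Gr A W)ᴴ * Ed W) =
      (I / 2) • (Ed W * (Gr A W - (Gr A W)ᴴ) * Ed W) := by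
    rw [Matrix.mul_sub, Matrix.sub_mul, smul_sub, neg_smul, sub_eq_add_neg]
  rw [h1, Mo, h2, h3, hw, Matrix.mul_smul, Matrix.smul_mul, add_assoc, ← add_smul]
  simp

theorem Mo_iso_vec (hA : A.IsSymm) (hW : ∀ x, (W x).im < 0) (y y' : ι → ℂ) :
    ∑ w, ((ev W w : ℝ) : ℂ) * (conj ((Mo A W *ᵥ y) w) * (Mo A W *ᵥ y') w) =
      (1 / 4) * ∑ w, ((ev W w : ℝ) : ℂ) * (conj (y w) * y' w) := by
  have h : star (Mo A W *ᵥ y) ⬝ᵥ (Ed W *ᵥ (Mo A W *ᵥ y')) =
      star y ⬝ᵥ ((((Mo A W)ᴴ * Ed W * Mo A W)) *ᵥ y') := by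
    rw [Matrix.star_mulVec, ← Matrix.dotProduct_mulVec, Matrix.mulVec_mulVec,
      Matrix.mulVec_mulVec]
  rw [Mo_iso hA hW] at h
  have hE : ∀ z : ι → ℂ, ∀ w, (Ed W *ᵥ z) w = ((ev W w : ℝ) : ℂ) * z w := by
    intro z w
    rw [Ed, Matrix.mulVec_diagonal]
    rfl
  have e1 : star (Mo A W *ᵥ y) ⬝ᵥ (Ed W *ᵥ (Mo A W *ᵥ y')) =
      ∑ w, ((ev W w : ℝ) : ℂ) * (conj ((Mo A W *ᵥ y) w) * (Mo A W *ᵥ y') w) := by
    rw [dotProduct]
    refine Finset.sum_congr rfl fun w _ => ?_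
    rw [hE, Pi.star_apply]
    simp only [RCLike.star_def]
    ring
  have e2 : star y ⬝ᵥ (((1 / 4 : ℂ) • Ed W) *ᵥ y') =
      (1 / 4) * ∑ w, ((ev W w : ℝ) : ℂ) * (conj (y w) * y' w) := by
    rw [Matrix.smul_mulVec, dotProduct, Finset.mul_sum]
    refine Finset.sum_congr rfl fun w _ => ?_
    rw [Pi.smul_apply, hE, Pi.star_apply, smul_eq_mul]
    simp only [RCLike.star_def]
    ring
  rw [← e1, h, e2]

theorem Mo_apply (y : ι → ℂ) (w : ι) :
    (Mo A W *ᵥ y) w = -(I / 2) * y w + ∑ u, Gr A W w u * ((ev W u : ℝ) : ℂ) * y u := by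
  rw [Mo, Matrix.add_mulVec, Pi.add_apply, Matrix.smul_mulVec, Pi.smul_apply, Matrix.one_mulVec,
    smul_eq_mul]
  congr 1
  rw [Matrix.mulVec, dotProduct]
  refine Finset.sum_congr rfl fun u _ => ?_
  rw [Ed, Matrix.mul_diagonal]
  rfl

/-- column `x` of `Y = [f, G^*]` -/
noncomputable def Yc (A : Matrix ι ι ℝ) (W : ι → ℂ) (f : ι → ℝ) (x u : ι) : ℂ :=
  ((f u - f x : ℝ) : ℂ) * conj (Gr A W u x)

theorem Yc_norm_sq (f : ι → ℝ) (x u : ι) :
    ‖Yc A W f x u‖ ^ 2 = KK A W u x * (f u - f x) ^ 2 := by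
  rw [Yc, norm_mul, mul_pow, Complex.norm_real, Real.norm_eq_abs, sq_abs, RCLike.norm_conj, KK]
  ring

/-- `conj T = M Y` -/
theorem conj_T (hA : A.IsSymm) (hW : ∀ x, (W x).im < 0) (f : ι → ℝ) (w x : ι) :
    conj (Tm A W f w x) = (Mo A W *ᵥ (Yc A W f x)) w := by
  rw [Mo_apply, Tm_apply hA hW, map_add, map_sum]
  have h1 := congrArg (starRingEnd ℂ) (Ward_apply hA hW w x)
  rw [Complex.conj_ofReal, map_sum] at h1
  have h2 : ∀ u, Gr A W w u * ((ev W u : ℝ) : ℂ) * Yc A W f x u =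
      Gr A W w u * ((ev W u : ℝ) : ℂ) * (f u : ℂ) * conj (Gr A W u x) -
        (f x : ℂ) * (Gr A W w u * ((ev W u : ℝ) : ℂ) * conj (Gr A W u x)) := by
    intro u
    rw [Yc]
    push_cast
    ring
  rw [Finset.sum_congr rfl fun u _ => h2 u, Finset.sum_sub_distrib, ← Finset.mul_sum]
  have h3 : ∑ u, Gr A W w u * ((ev W u : ℝ) : ℂ) * conj (Gr A W u x) =
      (((Gr A W w x).im : ℝ) : ℂ) := by
    rw [h1]
    refine Finset.sum_congr rfl fun u _ => ?_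
    rw [map_mul, map_mul, Complex.conj_ofReal, Complex.conj_conj, ev]
    ring
  rw [h3, Yc]
  have h4 : Gr A W w x - conj (Gr A W w x) = (2 * I) * (((Gr A W w x).im : ℝ) : ℂ) := by
    rw [Complex.sub_conj]
    push_cast
    ring
  have h5 : ∑ u, conj (((-(W u).im : ℝ) : ℂ) * (conj (Gr A W w u) * f u * Gr A W u x)) =
      ∑ u, Gr A W w u * ((ev W u : ℝ) : ℂ) * (f u : ℂ) * conj (Gr A W u x) := by
    refine Finset.sum_congr rfl fun u _ => ?_
    rw [map_mul, map_mul, map_mul, Complex.conj_ofReal, Complex.conj_ofReal, Complex.conj_conj, ev]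
    ring
  rw [h5]
  simp only [map_mul, map_sub, map_div₀, Complex.conj_I, Complex.conj_ofReal, Complex.conj_conj,
    map_ofNat]
  push_cast
  linear_combination (I / 2 * (f x : ℂ)) * h4 + ((f x : ℂ) * (((Gr A W w x).im : ℝ) : ℂ)) * Complex.I_mul_I

/-! ### norms -/

theorem Mo_norm (hA : A.IsSymm) (hW : ∀ x, (W x).im < 0) (y : ι → ℂ) :
    ∑ w, ev W w * ‖(Mo A W *ᵥ y) w‖ ^ 2 = (1 / 4) * ∑ w, ev W w * ‖y w‖ ^ 2 := by
  have h := Mo_iso_vec hA hW y y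
  have h1 : ∀ z : ℂ, conj z * z = ((‖z‖ ^ 2 : ℝ) : ℂ) := by
    intro z
    rw [← Complex.normSq_eq_norm_sq, Complex.normSq_eq_conj_mul_self]
  simp only [h1] at h
  apply Complex.ofReal_injective
  push_cast at h ⊢
  exact h

theorem row_T (hA : A.IsSymm) (hW : ∀ x, (W x).im < 0) (f : ι → ℝ) (x : ι) :
    ∑ w, ev W w * ‖Tm A W f w x‖ ^ 2 =
      (1 / 4) * ∑ w, ev W w * (KK A W w x * (f w - f x) ^ 2) := by
  have h := Mo_norm hA hW (Yc A W f x)
  have h1 : ∀ w, ‖(Mo A W *ᵥ (Yc A W f x)) w‖ = ‖Tm A W f w x‖ := by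
    intro w
    rw [← conj_T hA hW, RCLike.norm_conj]
  simp only [h1, Yc_norm_sq] at h
  exact h

theorem T_norm_symm (hA : A.IsSymm) (f : ι → ℝ) (w x : ι) :
    ‖Tm A W f w x‖ = ‖Tm A W f x w‖ := by
  rw [← Tm_conj hA x w, RCLike.norm_conj]

/-- weighted column of `Y` -/
noncomputable def Y1 (A : Matrix ι ι ℝ) (W : ι → ℂ) (f : ι → ℝ) (α : ι → ι → ℝ) (x u : ι) : ℂ :=
  ((α u x : ℝ) : ℂ) * Yc A W f x u

theorem Y1_norm_sq (f : ι → ℝ) (α : ι → ι → ℝ) (x u : ι) :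
    ‖Y1 A W f α x u‖ ^ 2 = α u x ^ 2 * (KK A W u x * (f u - f x) ^ 2) := by
  rw [Y1, norm_mul, mul_pow, Yc_norm_sq, Complex.norm_real, Real.norm_eq_abs, sq_abs]

theorem pairing (hA : A.IsSymm) (hW : ∀ x, (W x).im < 0) (f : ι → ℝ) (α : ι → ι → ℝ)
    (x : ι) :
    (1 / 4) * ∑ w, ev W w * (α w x * (KK A W w x * (f w - f x) ^ 2)) ≤
      ∑ w, ev W w * (‖Tm A W f w x‖ * ‖(Mo A W *ᵥ (Y1 A W f α x)) w‖) := by
  have h := Mo_iso_vec hA hW (Yc A W f x) (Y1 A W f α x)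
  have h1 : ∀ w, conj (Yc A W f x w) * Y1 A W f α x w =
      ((α w x * (KK A W w x * (f w - f x) ^ 2) : ℝ) : ℂ) := by
    intro w
    have h2 : conj (Yc A W f x w) * Yc A W f x w = ((‖Yc A W f x w‖ ^ 2 : ℝ) : ℂ) := by
      rw [← Complex.normSq_eq_norm_sq, Complex.normSq_eq_conj_mul_self]
    rw [Yc_norm_sq] at h2
    rw [Y1]
    push_cast at h2 ⊢
    linear_combination ((α w x : ℝ) : ℂ) * h2
  simp only [h1, ← conj_T hA hW, Complex.conj_conj] at h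
  have h3 : (((1 / 4) * ∑ w, ev W w * (α w x * (KK A W w x * (f w - f x) ^ 2)) : ℝ) : ℂ) =
      ∑ w, ((ev W w : ℝ) : ℂ) * (Tm A W f w x * (Mo A W *ᵥ (Y1 A W f α x)) w) := by
    rw [h]
    push_cast
    rfl
  calc (1 / 4) * ∑ w, ev W w * (α w x * (KK A W w x * (f w - f x) ^ 2))
      ≤ ‖(((1 / 4) * ∑ w, ev W w * (α w x * (KK A W w x * (f w - f x) ^ 2)) : ℝ) : ℂ)‖ := by
        rw [Complex.norm_real]
        exact le_abs_self _
    _ = ‖∑ w, ((ev W w : ℝ) : ℂ) * (Tm A W f w x * (Mo A W *ᵥ (Y1 A W f α x)) w)‖ := by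
        rw [h3]
    _ ≤ ∑ w, ‖((ev W w : ℝ) : ℂ) * (Tm A W f w x * (Mo A W *ᵥ (Y1 A W f α x)) w)‖ :=
        norm_sum_le _ _
    _ = _ := by
        refine Finset.sum_congr rfl fun w _ => ?_
        rw [norm_mul, norm_mul, Complex.norm_real, Real.norm_eq_abs, abs_of_pos (ev_pos hW w)]

/-! ### the estimate of one column -/

/-- power sent from `u` to partners which are `κ`-weak -/
noncomputable def Pwk (A : Matrix ι ι ℝ) (W : ι → ℂ) (ε2 : ℝ) (u : ι) : ℝ :=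
  ∑ w ∈ Finset.univ.filter (fun w => w ≠ u ∧ kap A W w u < ε2), PP A W u w

theorem e_norm_G (hA : A.IsSymm) (hW : ∀ x, (W x).im < 0) (w : ι) :
    ev W w * ‖Gr A W w w‖ ≤ 1 := by
  have h1 := e_mul_KK_le hA hW w w
  have h2 : mm A W w ≤ ‖Gr A W w w‖ := (le_abs_self _).trans (Complex.abs_im_le_norm _)
  have h3 : 0 < ‖Gr A W w w‖ := norm_pos_iff.2 (Gr_self_ne_zero hA hW w)
  rw [KK] at h1
  have h4 : ev W w * ‖Gr A W w w‖ ^ 2 ≤ ‖Gr A W w w‖ := h1.trans h2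
  have h5 : (ev W w * ‖Gr A W w w‖) * ‖Gr A W w w‖ ≤ 1 * ‖Gr A W w w‖ := by
    rw [one_mul]
    calc _ = ev W w * ‖Gr A W w w‖ ^ 2 := by ring
      _ ≤ _ := h4
  exact le_of_mul_le_mul_right h5 h3

theorem V_le (hA : A.IsSymm) (hW : ∀ x, (W x).im < 0) (y : ι → ℂ) (w : ι) :
    ‖(Mo A W *ᵥ y) w‖ ≤ 3 / 2 * ‖y w‖ +
      ∑ u ∈ Finset.univ.erase w, ‖Gr A W w u‖ * ev W u * ‖y u‖ := by
  rw [Mo_apply, ← Finset.add_sum_erase _ _ (Finset.mem_univ w)]
  have h1 : ‖-(I / 2) * y w‖ = 1 / 2 * ‖y w‖ := by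
    rw [norm_mul, norm_neg, norm_div, Complex.norm_I]
    norm_num
  have h2 : ‖Gr A W w w * ((ev W w : ℝ) : ℂ) * y w‖ ≤ ‖y w‖ := by
    rw [norm_mul, norm_mul, Complex.norm_real, Real.norm_eq_abs, abs_of_pos (ev_pos hW w)]
    have := e_norm_G hA hW w
    nlinarith [norm_nonneg (y w)]
  have h3 : ‖∑ u ∈ Finset.univ.erase w, Gr A W w u * ((ev W u : ℝ) : ℂ) * y u‖ ≤
      ∑ u ∈ Finset.univ.erase w, ‖Gr A W w u‖ * ev W u * ‖y u‖ := by
    refine (norm_sum_le _ _).trans (le_of_eq (Finset.sum_congr rfl fun u _ => ?_))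
    rw [norm_mul, norm_mul, Complex.norm_real, Real.norm_eq_abs, abs_of_pos (ev_pos hW u)]
  calc _ ≤ ‖-(I / 2) * y w‖ + (‖Gr A W w w * ((ev W w : ℝ) : ℂ) * y w‖ +
      ‖∑ u ∈ Finset.univ.erase w, Gr A W w u * ((ev W u : ℝ) : ℂ) * y u‖) :=
        (norm_add_le _ _).trans (add_le_add le_rfl (norm_add_le _ _))
    _ ≤ _ := by linarith

/-- mass of the `κ`-strong partners of `x` -/
theorem strong_mass (hA : A.IsSymm) (hW : ∀ x, (W x).im < 0) {ε1 : ℝ} (h1 : 0 < ε1) (x : ι) :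
    ∑ u, (if ε1 ≤ kap A W u x then ev W u * mm A W u else 0) ≤ 1 / ε1 := by
  have hm := mm_pos hA hW x
  have h2 : ∀ u, (if ε1 ≤ kap A W u x then ev W u * mm A W u else 0) ≤
      (1 / ε1) * (ev W u * KK A W x u / mm A W x) := by
    intro u
    have he := ev_pos hW u
    have hK := KK_nonneg (A := A) (W := W) x u
    split_ifs with h
    · have hmu := mm_pos hA hW u
      have h3 : ε1 * (mm A W u * mm A W x) ≤ KK A W x u := by
        rw [kap, le_div_iff₀ (kap_den_pos hA hW u x), KK_symm hA u x] at h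
        nlinarith [mul_pos hmu hm, mul_nonneg h1.le hK]
      rw [div_mul_div_comm, one_mul, le_div_iff₀ (mul_pos h1 hm)]
      calc ev W u * mm A W u * (ε1 * mm A W x) = ev W u * (ε1 * (mm A W u * mm A W x)) := by ring
        _ ≤ ev W u * KK A W x u := mul_le_mul_of_nonneg_left h3 he.le
    · positivity
  refine (Finset.sum_le_sum fun u _ => h2 u).trans (le_of_eq ?_)
  rw [← Finset.mul_sum, ← Finset.sum_div]
  have h3 : ∑ u, ev W u * KK A W x u = mm A W x := (mm_eq hA hW x).symm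
  rw [h3, div_self hm.ne', mul_one]

theorem term_le (hA : A.IsSymm) (hW : ∀ x, (W x).im < 0) (S : Finset ι) {ε1 ε2 t : ℝ}
    (h1 : 0 < ε1) (h2 : 0 < ε2) (ht : 0 < t) {ρ b : ℝ} (hρ : 0 ≤ ρ) (hb : 0 ≤ b) {w u x : ι}
    (huw : u ≠ w) (hu : b ≠ 0 → u ≠ x ∧ u ∈ S ∧ ε1 ≤ kap A W u x) :
    ρ * (‖Gr A W w u‖ * ev W u * b) ≤
      4 / (ε1 * ε2) * ρ ^ 2 * (if u ∈ S ∧ u ≠ w ∧ u ≠ x then
        ev W u * mm A W u * (kap A W w u * kap A W u x) else 0) +
      1 / 16 * (ev W u * KK A W w u * b ^ 2 / mm A W u) +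
      t * ε1 / 8 * ρ ^ 2 * (if ε1 ≤ kap A W u x then ev W u * mm A W u else 0) +
      2 / (t * ε1) * (if w ≠ u ∧ kap A W w u < ε2 then
        ev W u * KK A W w u * b ^ 2 / mm A W u else 0) := by
  have hm := mm_pos hA hW u
  have he := ev_pos hW u
  have hK := KK_nonneg (A := A) (W := W) w u
  have hk1 := kap_nonneg hA hW w u
  have hk2 := kap_nonneg hA hW u x
  have n1 : 0 ≤ (if u ∈ S ∧ u ≠ w ∧ u ≠ x then
        ev W u * mm A W u * (kap A W w u * kap A W u x) else 0) := by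
    split_ifs <;> positivity
  have n3 : 0 ≤ (if ε1 ≤ kap A W u x then ev W u * mm A W u else 0) := by
    split_ifs <;> positivity
  have n4 : 0 ≤ (if w ≠ u ∧ kap A W w u < ε2 then
        ev W u * KK A W w u * b ^ 2 / mm A W u else 0) := by
    split_ifs <;> positivity
  have n2 : 0 ≤ ev W u * KK A W w u * b ^ 2 / mm A W u := by positivity
  by_cases hb0 : b = 0
  · subst hb0
    rw [mul_zero, mul_zero]
    positivity
  obtain ⟨hux, huS, hk⟩ := hu hb0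
  have hKK : ‖Gr A W w u‖ ^ 2 = KK A W w u := rfl
  by_cases hw : kap A W w u < ε2
  · -- weak
    have g1 : ρ * (‖Gr A W w u‖ * ev W u * b) ≤
        t * ε1 / 8 * ρ ^ 2 * (ev W u * mm A W u) +
        2 / (t * ε1) * (ev W u * KK A W w u * b ^ 2 / mm A W u) := by
      apply amgm_sq (by positivity) (by positivity)
      rw [← hKK]
      apply le_of_eq
      field_simp
      ring
    rw [if_pos hk, if_pos (show w ≠ u ∧ kap A W w u < ε2 from ⟨huw.symm, hw⟩)]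
    have g2 : 0 ≤ 4 / (ε1 * ε2) * ρ ^ 2 * (if u ∈ S ∧ u ≠ w ∧ u ≠ x then
        ev W u * mm A W u * (kap A W w u * kap A W u x) else 0) := by positivity
    linarith
  · -- strong
    have hw' := not_lt.1 hw
    have g1 : ρ * (‖Gr A W w u‖ * ev W u * b) ≤
        4 / (ε1 * ε2) * ρ ^ 2 * (ev W u * mm A W u * (kap A W w u * kap A W u x)) +
        1 / 16 * (ev W u * KK A W w u * b ^ 2 / mm A W u) := by
      apply amgm_sq (by positivity) (by positivity)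
      rw [← hKK]
      have e1 : 4 * (4 / (ε1 * ε2) * ρ ^ 2 * (ev W u * mm A W u *
          (kap A W w u * kap A W u x))) * (1 / 16 * (ev W u * ‖Gr A W w u‖ ^ 2 * b ^ 2 /
          mm A W u)) = (ρ * (‖Gr A W w u‖ * ev W u * b)) ^ 2 *
          ((kap A W w u * kap A W u x) / (ε1 * ε2)) := by
        field_simp
        ring
      rw [e1]
      have e2 : 1 ≤ (kap A W w u * kap A W u x) / (ε1 * ε2) := by
        rw [one_le_div (mul_pos h1 h2), mul_comm ε1 ε2]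
        exact mul_le_mul hw' hk h1.le hk1
      exact le_mul_of_one_le_right (sq_nonneg _) e2
    rw [if_pos (show u ∈ S ∧ u ≠ w ∧ u ≠ x from ⟨huS, huw, hux⟩)]
    have g3 : 0 ≤ t * ε1 / 8 * ρ ^ 2 * (if ε1 ≤ kap A W u x then ev W u * mm A W u else 0) := by
      positivity
    have g4 : 0 ≤ 2 / (t * ε1) * (if w ≠ u ∧ kap A W w u < ε2 then
        ev W u * KK A W w u * b ^ 2 / mm A W u else 0) := by positivity
    linarith

/-- pair bound for `w ≠ x`, both moving -/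
theorem pair_le (hA : A.IsSymm) (hW : ∀ x, (W x).im < 0) (f : ι → ℝ) (S : Finset ι)
    (α : ι → ι → ℝ) {ε1 ε2 t : ℝ} (h1 : 0 < ε1) (h2 : 0 < ε2) (ht : 0 < t)
    (hα : ∀ u x, α u x ≠ 0 → u ∈ S ∧ ε1 ≤ kap A W u x) {w x : ι} {ρ : ℝ} (hρ : 0 ≤ ρ) :
    ρ * ‖(Mo A W *ᵥ (Y1 A W f α x)) w‖ ≤
      18 / ε1 * (kap A W w x * ρ ^ 2) + ‖Y1 A W f α x w‖ ^ 2 / 32 +
      4 / (ε1 * ε2) * (lamS A W S w x * ρ ^ 2) +
      1 / 16 * ∑ u, ev W u * KK A W w u * ‖Y1 A W f α x u‖ ^ 2 / mm A W u +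
      t / 8 * ρ ^ 2 +
      2 / (t * ε1) * ∑ u, (if w ≠ u ∧ kap A W w u < ε2 then
        ev W u * KK A W w u * ‖Y1 A W f α x u‖ ^ 2 / mm A W u else 0) := by
  have hY : ∀ u, ‖Y1 A W f α x u‖ ≠ 0 → u ≠ x ∧ u ∈ S ∧ ε1 ≤ kap A W u x := by
    intro u hu
    have h3 : α u x ≠ 0 := by
      intro h
      apply hu
      rw [Y1, h]
      simp
    refine ⟨?_, hα u x h3⟩
    rintro rfl
    apply hu
    rw [Y1, Yc, sub_self]
    simp
  have hk := kap_nonneg hA hW w x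
  -- first part
  have ga : ρ * (3 / 2 * ‖Y1 A W f α x w‖) ≤
      18 / ε1 * (kap A W w x * ρ ^ 2) + ‖Y1 A W f α x w‖ ^ 2 / 32 := by
    apply amgm_sq (by positivity) (by positivity)
    by_cases hb : ‖Y1 A W f α x w‖ = 0
    · rw [hb]
      simp
    · have h3 := (hY w hb).2.2
      have e1 : 4 * (18 / ε1 * (kap A W w x * ρ ^ 2)) * (‖Y1 A W f α x w‖ ^ 2 / 32) =
          (ρ * (3 / 2 * ‖Y1 A W f α x w‖)) ^ 2 * (kap A W w x / ε1) := by
        field_simp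
        ring
      rw [e1]
      exact le_mul_of_one_le_right (sq_nonneg _) ((one_le_div h1).2 h3)
  -- second part
  have gb : ρ * ∑ u ∈ Finset.univ.erase w, ‖Gr A W w u‖ * ev W u * ‖Y1 A W f α x u‖ ≤
      ∑ u, (4 / (ε1 * ε2) * ρ ^ 2 * (if u ∈ S ∧ u ≠ w ∧ u ≠ x then
        ev W u * mm A W u * (kap A W w u * kap A W u x) else 0) +
      1 / 16 * (ev W u * KK A W w u * ‖Y1 A W f α x u‖ ^ 2 / mm A W u) +
      t * ε1 / 8 * ρ ^ 2 * (if ε1 ≤ kap A W u x then ev W u * mm A W u else 0) +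
      2 / (t * ε1) * (if w ≠ u ∧ kap A W w u < ε2 then
        ev W u * KK A W w u * ‖Y1 A W f α x u‖ ^ 2 / mm A W u else 0)) := by
    rw [Finset.mul_sum]
    refine (Finset.sum_le_sum fun u hu => term_le hA hW S h1 h2 ht hρ (norm_nonneg _)
      (Finset.ne_of_mem_erase hu) (hY u)).trans
      (Finset.sum_le_sum_of_subset_of_nonneg (Finset.erase_subset _ _) fun u _ _ => ?_)
    have hm := mm_pos hA hW u
    have he := ev_pos hW u
    have hK := KK_nonneg (A := A) (W := W) w u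
    have hk1 := kap_nonneg hA hW w u
    have hk2 := kap_nonneg hA hW u x
    have n1 : 0 ≤ (if u ∈ S ∧ u ≠ w ∧ u ≠ x then
        ev W u * mm A W u * (kap A W w u * kap A W u x) else 0) := by
      split_ifs <;> positivity
    have n3 : 0 ≤ (if ε1 ≤ kap A W u x then ev W u * mm A W u else 0) := by
      split_ifs <;> positivity
    have n4 : 0 ≤ (if w ≠ u ∧ kap A W w u < ε2 then
        ev W u * KK A W w u * ‖Y1 A W f α x u‖ ^ 2 / mm A W u else 0) := by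
      split_ifs <;> positivity
    positivity
  rw [Finset.sum_add_distrib, Finset.sum_add_distrib, Finset.sum_add_distrib, ← Finset.mul_sum,
    ← Finset.mul_sum, ← Finset.mul_sum, ← Finset.mul_sum] at gb
  have hl : ∑ u, (if u ∈ S ∧ u ≠ w ∧ u ≠ x then
        ev W u * mm A W u * (kap A W w u * kap A W u x) else 0) = lamS A W S w x := by
    rw [lamS, ← Finset.sum_filter]
    refine Finset.sum_congr ?_ fun u _ => rfl
    ext u
    simp
  have hs := mul_le_mul_of_nonneg_left (strong_mass hA hW h1 x)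
    (show 0 ≤ t * ε1 / 8 * ρ ^ 2 by positivity)
  have hs2 : t * ε1 / 8 * ρ ^ 2 * (1 / ε1) = t / 8 * ρ ^ 2 := by
    field_simp
  rw [hs2] at hs
  rw [hl] at gb
  have gv := mul_le_mul_of_nonneg_left (V_le hA hW (Y1 A W f α x) w) hρ
  rw [mul_add] at gv
  have g5 : 4 / (ε1 * ε2) * ρ ^ 2 * lamS A W S w x =
      4 / (ε1 * ε2) * (lamS A W S w x * ρ ^ 2) := by ring
  linarith

/-- sum over the receivers of the middle site -/
theorem mid_sum (hA : A.IsSymm) (hW : ∀ x, (W x).im < 0) (b : ι → ℝ) :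
    ∑ w, ev W w * ∑ u, ev W u * KK A W w u * b u ^ 2 / mm A W u = ∑ u, ev W u * b u ^ 2 := by
  simp only [Finset.mul_sum]
  rw [Finset.sum_comm]
  refine Finset.sum_congr rfl fun u _ => ?_
  have hm := mm_pos hA hW u
  have h3 : ∑ w, ev W w * KK A W u w = mm A W u := (mm_eq hA hW u).symm
  have h4 : ∀ w, ev W w * (ev W u * KK A W w u * b u ^ 2 / mm A W u) =
      (ev W u * b u ^ 2 / mm A W u) * (ev W w * KK A W u w) := by
    intro w
    rw [KK_symm hA w u]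
    ring
  rw [Finset.sum_congr rfl fun w _ => h4 w, ← Finset.mul_sum, h3]
  field_simp

theorem weak_sum (hA : A.IsSymm) (hW : ∀ x, (W x).im < 0) (b : ι → ℝ) (ε2 : ℝ) :
    ∑ w, ev W w * ∑ u, (if w ≠ u ∧ kap A W w u < ε2 then
        ev W u * KK A W w u * b u ^ 2 / mm A W u else 0) =
      ∑ u, ev W u * b u ^ 2 * Pwk A W ε2 u := by
  simp only [Finset.mul_sum]
  rw [Finset.sum_comm]
  refine Finset.sum_congr rfl fun u _ => ?_
  rw [Pwk, Finset.sum_filter, Finset.mul_sum]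
  refine Finset.sum_congr rfl fun w _ => ?_
  split_ifs with h
  · rw [PP, KK_symm hA w u, ev, ev]
    ring
  · simp

/-- **one column**, `x` moving -/
theorem col_F3 (hA : A.IsSymm) (hW : ∀ x, (W x).im < 0) (f : ι → ℝ) (S : Finset ι)
    (α : ι → ι → ℝ) (h0 : ∀ u x, 0 ≤ α u x) (h1 : ∀ u x, α u x ≤ 1) {ε1 ε2 t : ℝ}
    (hε1 : 0 < ε1) (hε2 : 0 < ε2) (ht : 0 < t)
    (hα : ∀ u x, α u x ≠ 0 → u ∈ S ∧ ε1 ≤ kap A W u x) {x : ι} (hx : x ∈ S) :
    ∑ w, ev W w * (α w x * (KK A W w x * (f w - f x) ^ 2)) ≤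
      16 * (ev W x * ‖Tm A W f x x‖ ^ 2) + 16 * ∑ w ∈ Sᶜ, ev W w * ‖Tm A W f w x‖ ^ 2 +
      144 / ε1 * ∑ w ∈ S.erase x, ev W w * (kap A W w x * ‖Tm A W f w x‖ ^ 2) +
      32 / (ε1 * ε2) * ∑ w ∈ S.erase x, ev W w * (lamS A W S w x * ‖Tm A W f w x‖ ^ 2) +
      t * ∑ w, ev W w * ‖Tm A W f w x‖ ^ 2 +
      16 / (t * ε1) * ∑ u, ev W u * (α u x * (KK A W u x * (f u - f x) ^ 2)) *
        Pwk A W ε2 u := by
  set N := ∑ w, ev W w * (α w x * (KK A W w x * (f w - f x) ^ 2)) with hN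
  set b : ι → ℝ := fun u => ‖Y1 A W f α x u‖ with hb
  set v : ι → ℝ := fun w => ‖(Mo A W *ᵥ (Y1 A W f α x)) w‖ with hv
  set ρ : ι → ℝ := fun w => ‖Tm A W f w x‖ with hρ
  have hb2 : ∀ u, b u ^ 2 ≤ α u x * (KK A W u x * (f u - f x) ^ 2) := by
    intro u
    rw [hb]
    simp only
    rw [Y1_norm_sq]
    refine mul_le_mul_of_nonneg_right ?_ (mul_nonneg (KK_nonneg _ _) (sq_nonneg _))
    have := h0 u x
    have := h1 u x
    nlinarith
  have hbN : ∑ u, ev W u * b u ^ 2 ≤ N :=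
    Finset.sum_le_sum fun u _ => mul_le_mul_of_nonneg_left (hb2 u) (ev_pos hW u).le
  have hPw : ∀ u, 0 ≤ Pwk A W ε2 u := fun u =>
    Finset.sum_nonneg fun w _ => PP_nonneg hA hW u w
  have hP := pairing hA hW f α x
  rw [← hN] at hP
  -- pointwise bound
  have hpt : ∀ w, ρ w * v w ≤
      (if w ∈ S.erase x then 18 / ε1 * (kap A W w x * ρ w ^ 2) +
        4 / (ε1 * ε2) * (lamS A W S w x * ρ w ^ 2) else 2 * ρ w ^ 2) +
      v w ^ 2 / 8 + b w ^ 2 / 32 +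
      1 / 16 * (∑ u, ev W u * KK A W w u * b u ^ 2 / mm A W u) + t / 8 * ρ w ^ 2 +
      2 / (t * ε1) * ∑ u, (if w ≠ u ∧ kap A W w u < ε2 then
        ev W u * KK A W w u * b u ^ 2 / mm A W u else 0) := by
    intro w
    have n1 : 0 ≤ ∑ u, ev W u * KK A W w u * b u ^ 2 / mm A W u :=
      Finset.sum_nonneg fun u _ => div_nonneg (mul_nonneg (mul_nonneg (ev_pos hW u).le
        (KK_nonneg _ _)) (sq_nonneg _)) (mm_pos hA hW u).le
    have n2 : 0 ≤ ∑ u, (if w ≠ u ∧ kap A W w u < ε2 then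
        ev W u * KK A W w u * b u ^ 2 / mm A W u else 0) :=
      Finset.sum_nonneg fun u _ => by
        split_ifs
        · exact div_nonneg (mul_nonneg (mul_nonneg (ev_pos hW u).le
            (KK_nonneg _ _)) (sq_nonneg _)) (mm_pos hA hW u).le
        · exact le_rfl
    by_cases hw : w ∈ S.erase x
    · rw [if_pos hw]
      have h3 := pair_le hA hW f S α hε1 hε2 ht hα (w := w) (x := x) (norm_nonneg (Tm A W f w x))
      have h4 : 0 ≤ v w ^ 2 / 8 := by positivity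
      have h5 : ρ w * v w ≤ 18 / ε1 * (kap A W w x * ρ w ^ 2) + b w ^ 2 / 32 +
          4 / (ε1 * ε2) * (lamS A W S w x * ρ w ^ 2) +
          1 / 16 * (∑ u, ev W u * KK A W w u * b u ^ 2 / mm A W u) + t / 8 * ρ w ^ 2 +
          2 / (t * ε1) * ∑ u, (if w ≠ u ∧ kap A W w u < ε2 then
            ev W u * KK A W w u * b u ^ 2 / mm A W u else 0) := h3
      linarith
    · rw [if_neg hw]
      have h3 : ρ w * v w ≤ 2 * ρ w ^ 2 + v w ^ 2 / 8 := by nlinarith [sq_nonneg (4 * ρ w - v w)]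
      have h4 : 0 ≤ b w ^ 2 / 32 + t / 8 * ρ w ^ 2 := by positivity
      have h5 : 0 ≤ 1 / 16 * (∑ u, ev W u * KK A W w u * b u ^ 2 / mm A W u) := by positivity
      have h6 : 0 ≤ 2 / (t * ε1) * ∑ u, (if w ≠ u ∧ kap A W w u < ε2 then
        ev W u * KK A W w u * b u ^ 2 / mm A W u else 0) := by positivity
      linarith
  have hsum := Finset.sum_le_sum fun w (_ : w ∈ Finset.univ) =>
    mul_le_mul_of_nonneg_left (hpt w) (ev_pos hW w).le
  have hv2 : ∑ w, ev W w * v w ^ 2 = (1 / 4) * ∑ w, ev W w * b w ^ 2 :=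
    Mo_norm hA hW (Y1 A W f α x)
  have hmid := mid_sum hA hW b
  have hweak := weak_sum hA hW b ε2
  have hexp : ∑ w, ev W w * ((if w ∈ S.erase x then 18 / ε1 * (kap A W w x * ρ w ^ 2) +
        4 / (ε1 * ε2) * (lamS A W S w x * ρ w ^ 2) else 2 * ρ w ^ 2) +
      v w ^ 2 / 8 + b w ^ 2 / 32 +
      1 / 16 * (∑ u, ev W u * KK A W w u * b u ^ 2 / mm A W u) + t / 8 * ρ w ^ 2 +
      2 / (t * ε1) * ∑ u, (if w ≠ u ∧ kap A W w u < ε2 then
        ev W u * KK A W w u * b u ^ 2 / mm A W u else 0)) =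
      ∑ w, ev W w * (if w ∈ S.erase x then 18 / ε1 * (kap A W w x * ρ w ^ 2) +
        4 / (ε1 * ε2) * (lamS A W S w x * ρ w ^ 2) else 2 * ρ w ^ 2) +
      (1 / 8) * ∑ w, ev W w * v w ^ 2 + (1 / 32) * ∑ w, ev W w * b w ^ 2 +
      1 / 16 * ∑ w, ev W w * (∑ u, ev W u * KK A W w u * b u ^ 2 / mm A W u) +
      t / 8 * ∑ w, ev W w * ρ w ^ 2 +
      2 / (t * ε1) * ∑ w, ev W w * ∑ u, (if w ≠ u ∧ kap A W w u < ε2 then
        ev W u * KK A W w u * b u ^ 2 / mm A W u else 0) := by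
    rw [Finset.mul_sum (a := (1 / 8 : ℝ)), Finset.mul_sum (a := (1 / 32 : ℝ)),
      Finset.mul_sum (a := (1 / 16 : ℝ)), Finset.mul_sum (a := t / 8),
      Finset.mul_sum (a := 2 / (t * ε1)), ← Finset.sum_add_distrib, ← Finset.sum_add_distrib,
      ← Finset.sum_add_distrib, ← Finset.sum_add_distrib, ← Finset.sum_add_distrib]
    refine Finset.sum_congr rfl fun w _ => ?_
    ring
  rw [hexp, hv2, hmid, hweak] at hsum
  -- the good / bad split
  have hcompl : (S.erase x)ᶜ = insert x Sᶜ := by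
    ext w
    simp only [Finset.mem_compl, Finset.mem_erase, Finset.mem_insert]
    tauto
  have hsplit : ∑ w, ev W w * (if w ∈ S.erase x then 18 / ε1 * (kap A W w x * ρ w ^ 2) +
        4 / (ε1 * ε2) * (lamS A W S w x * ρ w ^ 2) else 2 * ρ w ^ 2) =
      18 / ε1 * ∑ w ∈ S.erase x, ev W w * (kap A W w x * ρ w ^ 2) +
      4 / (ε1 * ε2) * ∑ w ∈ S.erase x, ev W w * (lamS A W S w x * ρ w ^ 2) +
      2 * (ev W x * ρ x ^ 2 + ∑ w ∈ Sᶜ, ev W w * ρ w ^ 2) := by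
    rw [← Finset.sum_add_sum_compl (S.erase x), hcompl, Finset.sum_insert (by simp [hx])]
    have e1 : ∑ w ∈ S.erase x, ev W w * (if w ∈ S.erase x then
        18 / ε1 * (kap A W w x * ρ w ^ 2) + 4 / (ε1 * ε2) * (lamS A W S w x * ρ w ^ 2)
        else 2 * ρ w ^ 2) =
        18 / ε1 * ∑ w ∈ S.erase x, ev W w * (kap A W w x * ρ w ^ 2) +
        4 / (ε1 * ε2) * ∑ w ∈ S.erase x, ev W w * (lamS A W S w x * ρ w ^ 2) := by
      rw [Finset.mul_sum, Finset.mul_sum, ← Finset.sum_add_distrib]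
      refine Finset.sum_congr rfl fun w hw => ?_
      rw [if_pos hw]
      ring
    have e2 : ∑ w ∈ Sᶜ, ev W w * (if w ∈ S.erase x then
        18 / ε1 * (kap A W w x * ρ w ^ 2) + 4 / (ε1 * ε2) * (lamS A W S w x * ρ w ^ 2)
        else 2 * ρ w ^ 2) = 2 * ∑ w ∈ Sᶜ, ev W w * ρ w ^ 2 := by
      rw [Finset.mul_sum]
      refine Finset.sum_congr rfl fun w hw => ?_
      rw [if_neg (fun h => (Finset.mem_compl.1 hw) (Finset.mem_of_mem_erase h))]
      ring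
    rw [e1, e2, if_neg (Finset.notMem_erase x S)]
    ring
  rw [hsplit] at hsum
  have hwk : ∑ u, ev W u * b u ^ 2 * Pwk A W ε2 u ≤
      ∑ u, ev W u * (α u x * (KK A W u x * (f u - f x) ^ 2)) * Pwk A W ε2 u :=
    Finset.sum_le_sum fun u _ => mul_le_mul_of_nonneg_right
      (mul_le_mul_of_nonneg_left (hb2 u) (ev_pos hW u).le) (hPw u)
  have hc : 0 ≤ 2 / (t * ε1) := by positivity
  have hwk2 := mul_le_mul_of_nonneg_left hwk hc
  have hfin := hP.trans hsum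
  have q1 : 16 / (t * ε1) = 8 * (2 / (t * ε1)) := by ring
  have q2 : 144 / ε1 = 8 * (18 / ε1) := by ring
  have q3 : 32 / (ε1 * ε2) = 8 * (4 / (ε1 * ε2)) := by ring
  rw [q1, q2, q3]
  nlinarith [hfin, hwk2, hbN]

/-- **THE POINTWISE STATIC LEMMA** (general profile, static sites allowed) -/
theorem static_F3 (hA : A.IsSymm) (hW : ∀ x, (W x).im < 0) (f : ι → ℝ) (S : Finset ι)
    (α : ι → ι → ℝ) (h0 : ∀ u x, 0 ≤ α u x) (h1 : ∀ u x, α u x ≤ 1) {ε1 ε2 t : ℝ}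
    (hε1 : 0 < ε1) (hε2 : 0 < ε2) (ht : 0 < t)
    (hα : ∀ u x, α u x ≠ 0 → u ∈ S ∧ ε1 ≤ kap A W u x) :
    ∑ x, ∑ u, ev W x * (ev W u * (α u x * (KK A W u x * (f u - f x) ^ 2))) ≤
      16 * ∑ x ∈ S, ev W x * (mm A W x * muf A W f x ^ 2) +
      5 * ∑ z ∈ Sᶜ, ∑ w, ev W z * (ev W w * (KK A W w z * (f w - f z) ^ 2)) +
      144 / ε1 * ∑ x ∈ S, ∑ w ∈ S.erase x,
        ev W x * (ev W w * (kap A W w x * ‖Tm A W f w x‖ ^ 2)) +
      32 / (ε1 * ε2) * ∑ x ∈ S, ∑ w ∈ S.erase x,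
        ev W x * (ev W w * (lamS A W S w x * ‖Tm A W f w x‖ ^ 2)) +
      t * ∑ x, ∑ w, ev W x * (ev W w * ‖Tm A W f w x‖ ^ 2) +
      16 / (t * ε1) * ∑ x, ∑ u, ev W x * (ev W u * (α u x * (KK A W u x * (f u - f x) ^ 2)) *
        Pwk A W ε2 u) := by
  have hPw : ∀ u, 0 ≤ Pwk A W ε2 u := fun u =>
    Finset.sum_nonneg fun w _ => PP_nonneg hA hW u w
  have hen : ∀ w x, 0 ≤ ev W w * (KK A W w x * (f w - f x) ^ 2) := fun w x =>
    mul_nonneg (ev_pos hW w).le (mul_nonneg (KK_nonneg _ _) (sq_nonneg _))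
  have hα' : ∀ w x, 0 ≤ α w x * (KK A W w x * (f w - f x) ^ 2) := fun w x =>
    mul_nonneg (h0 w x) (mul_nonneg (KK_nonneg _ _) (sq_nonneg _))
  -- columns outside `S`
  have hout : ∑ x ∈ Sᶜ, ∑ u, ev W x * (ev W u * (α u x * (KK A W u x * (f u - f x) ^ 2))) ≤
      ∑ z ∈ Sᶜ, ∑ w, ev W z * (ev W w * (KK A W w z * (f w - f z) ^ 2)) := by
    refine Finset.sum_le_sum fun x _ => Finset.sum_le_sum fun u _ => ?_
    refine mul_le_mul_of_nonneg_left (mul_le_mul_of_nonneg_left ?_ (ev_pos hW u).le)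
      (ev_pos hW x).le
    exact mul_le_of_le_one_left (mul_nonneg (KK_nonneg _ _) (sq_nonneg _)) (h1 u x)
  -- columns in `S`
  have hin : ∑ x ∈ S, ∑ u, ev W x * (ev W u * (α u x * (KK A W u x * (f u - f x) ^ 2))) ≤
      16 * ∑ x ∈ S, ev W x * (ev W x * ‖Tm A W f x x‖ ^ 2) +
      16 * ∑ x ∈ S, ev W x * ∑ w ∈ Sᶜ, ev W w * ‖Tm A W f w x‖ ^ 2 +
      144 / ε1 * ∑ x ∈ S, ∑ w ∈ S.erase x,
        ev W x * (ev W w * (kap A W w x * ‖Tm A W f w x‖ ^ 2)) +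
      32 / (ε1 * ε2) * ∑ x ∈ S, ∑ w ∈ S.erase x,
        ev W x * (ev W w * (lamS A W S w x * ‖Tm A W f w x‖ ^ 2)) +
      t * ∑ x ∈ S, ∑ w, ev W x * (ev W w * ‖Tm A W f w x‖ ^ 2) +
      16 / (t * ε1) * ∑ x ∈ S, ∑ u, ev W x * (ev W u * (α u x *
        (KK A W u x * (f u - f x) ^ 2)) * Pwk A W ε2 u) := by
    simp only [Finset.mul_sum (s := S)]
    rw [← Finset.sum_add_distrib, ← Finset.sum_add_distrib, ← Finset.sum_add_distrib,
      ← Finset.sum_add_distrib, ← Finset.sum_add_distrib]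
    refine Finset.sum_le_sum fun x hx => ?_
    have h := mul_le_mul_of_nonneg_left (col_F3 hA hW f S α h0 h1 hε1 hε2 ht hα hx)
      (ev_pos hW x).le
    simp only [← Finset.mul_sum]
    refine h.trans (le_of_eq ?_)
    ring
  -- diagonal
  have hdiag : ∑ x ∈ S, ev W x * (ev W x * ‖Tm A W f x x‖ ^ 2) ≤
      ∑ x ∈ S, ev W x * (mm A W x * muf A W f x ^ 2) := by
    refine Finset.sum_le_sum fun x _ => mul_le_mul_of_nonneg_left ?_ (ev_pos hW x).le
    rw [Tm_self hA hW, Complex.norm_real, Real.norm_eq_abs, sq_abs, mul_pow]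
    have h3 : ev W x * mm A W x ≤ 1 := e_mul_mm_le hA hW x
    have h4 := mm_pos hA hW x
    have h5 : ev W x * (mm A W x ^ 2 * muf A W f x ^ 2) =
        (ev W x * mm A W x) * (mm A W x * muf A W f x ^ 2) := by ring
    rw [h5]
    exact mul_le_of_le_one_left (mul_nonneg h4.le (sq_nonneg _)) h3
  -- static rows
  have hrow : ∑ x ∈ S, ev W x * ∑ w ∈ Sᶜ, ev W w * ‖Tm A W f w x‖ ^ 2 ≤
      (1 / 4) * ∑ z ∈ Sᶜ, ∑ w, ev W z * (ev W w * (KK A W w z * (f w - f z) ^ 2)) := by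
    have e1 : ∑ x ∈ S, ev W x * ∑ w ∈ Sᶜ, ev W w * ‖Tm A W f w x‖ ^ 2 =
        ∑ w ∈ Sᶜ, ev W w * ∑ x ∈ S, ev W x * ‖Tm A W f x w‖ ^ 2 := by
      simp only [Finset.mul_sum]
      rw [Finset.sum_comm]
      refine Finset.sum_congr rfl fun w _ => Finset.sum_congr rfl fun x _ => ?_
      rw [T_norm_symm hA f w x]
      ring
    rw [e1, Finset.mul_sum]
    refine Finset.sum_le_sum fun w _ => ?_
    have e2 : ∑ x ∈ S, ev W x * ‖Tm A W f x w‖ ^ 2 ≤ ∑ x, ev W x * ‖Tm A W f x w‖ ^ 2 :=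
      Finset.sum_le_sum_of_subset_of_nonneg (Finset.subset_univ _) fun x _ _ =>
        mul_nonneg (ev_pos hW x).le (sq_nonneg _)
    rw [row_T hA hW] at e2
    refine (mul_le_mul_of_nonneg_left e2 (ev_pos hW w).le).trans (le_of_eq ?_)
    rw [← Finset.mul_sum]
    ring
  have hT : ∑ x ∈ S, ∑ w, ev W x * (ev W w * ‖Tm A W f w x‖ ^ 2) ≤
      ∑ x, ∑ w, ev W x * (ev W w * ‖Tm A W f w x‖ ^ 2) :=
    Finset.sum_le_sum_of_subset_of_nonneg (Finset.subset_univ _) fun x _ _ =>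
      Finset.sum_nonneg fun w _ => mul_nonneg (ev_pos hW x).le
        (mul_nonneg (ev_pos hW w).le (sq_nonneg _))
  have hK : ∑ x ∈ S, ∑ u, ev W x * (ev W u * (α u x *
        (KK A W u x * (f u - f x) ^ 2)) * Pwk A W ε2 u) ≤
      ∑ x, ∑ u, ev W x * (ev W u * (α u x *
        (KK A W u x * (f u - f x) ^ 2)) * Pwk A W ε2 u) :=
    Finset.sum_le_sum_of_subset_of_nonneg (Finset.subset_univ _) fun x _ _ =>
      Finset.sum_nonneg fun u _ => mul_nonneg (ev_pos hW x).le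
        (mul_nonneg (mul_nonneg (ev_pos hW u).le (hα' u x)) (hPw u))
  have g1 := mul_le_mul_of_nonneg_left hT ht.le
  have g2 := mul_le_mul_of_nonneg_left hK (show 0 ≤ 16 / (t * ε1) by positivity)
  rw [← Finset.sum_add_sum_compl S (fun x => ∑ u, ev W x * (ev W u *
    (α u x * (KK A W u x * (f u - f x) ^ 2))))]
  linarith

end P365T2.StatF3
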