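import Vale.Agent.P365.T2.H799.StatF3

/-!
# P365-T2, X-STAT: the pointwise static lemma with indicators (968's form of 22:30)
-/

set_option linter.all false

namespace P365T2.StatF3

open Matrix Complex P365L
open scoped ComplexConjugate

variable {ι : Type*} [Fintype ι] [DecidableEq ι]
variable {A : Matrix ι ι ℝ} {W : ι → ℂ}

/-- power sent from `u` to partners which are static (`∉ S`) or `κ`-weak -/
noncomputable def Pst (A : Matrix ι ι ℝ) (W : ι → ℂ) (S : Finset ι) (ε2 : ℝ) (u : ι) : ℝ :=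
  ∑ w ∈ Finset.univ.filter (fun w => w ≠ u ∧ (w ∉ S ∨ kap A W w u < ε2)), PP A W u w

/-- `|M_ww| ≤ 1/2` -/
theorem Mo_diag (hA : A.IsSymm) (hW : ∀ x, (W x).im < 0) (w : ι) :
    ‖-(I / 2) + Gr A W w w * ((ev W w : ℝ) : ℂ)‖ ≤ 1 / 2 := by
  have h := Mo_norm hA hW (Pi.single w 1)
  have h1 : ∑ z, ev W z * ‖(Pi.single w 1 : ι → ℂ) z‖ ^ 2 = ev W w := by
    rw [Finset.sum_eq_single w]
    · rw [Pi.single_eq_same]; simp
    · intro z _ hz
      rw [Pi.single_eq_of_ne hz]; simp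
    · simp
  have h2 : (Mo A W *ᵥ (Pi.single w 1)) w = -(I / 2) + Gr A W w w * ((ev W w : ℝ) : ℂ) := by
    rw [Mo_apply, Pi.single_eq_same, mul_one, Finset.sum_eq_single w]
    · rw [Pi.single_eq_same, mul_one]
    · intro z _ hz
      rw [Pi.single_eq_of_ne hz, mul_zero]
    · simp
  have h3 : ev W w * ‖(Mo A W *ᵥ (Pi.single w 1)) w‖ ^ 2 ≤
      ∑ z, ev W z * ‖(Mo A W *ᵥ (Pi.single w 1)) z‖ ^ 2 :=
    Finset.single_le_sum (f := fun z => ev W z * ‖(Mo A W *ᵥ (Pi.single w 1)) z‖ ^ 2)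
      (fun z _ => mul_nonneg (ev_pos hW z).le (sq_nonneg _)) (Finset.mem_univ w)
  rw [h, h1, h2] at h3
  have he := ev_pos hW w
  have h4 : ‖-(I / 2) + Gr A W w w * ((ev W w : ℝ) : ℂ)‖ ^ 2 ≤ (1 / 2) ^ 2 := by
    have h5 : ev W w * ‖-(I / 2) + Gr A W w w * ((ev W w : ℝ) : ℂ)‖ ^ 2 ≤
        ev W w * (1 / 2) ^ 2 := by linarith
    exact le_of_mul_le_mul_left h5 he
  exact (abs_le_of_sq_le_sq' h4 (by norm_num)).2

theorem V_le' (hA : A.IsSymm) (hW : ∀ x, (W x).im < 0) (y : ι → ℂ) (w : ι) :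
    ‖(Mo A W *ᵥ y) w‖ ≤ 1 / 2 * ‖y w‖ +
      ∑ u ∈ Finset.univ.erase w, ‖Gr A W w u‖ * ev W u * ‖y u‖ := by
  rw [Mo_apply, ← Finset.add_sum_erase _ _ (Finset.mem_univ w)]
  have h1 : ‖-(I / 2) * y w + Gr A W w w * ((ev W w : ℝ) : ℂ) * y w‖ ≤ 1 / 2 * ‖y w‖ := by
    rw [← add_mul, norm_mul]
    exact mul_le_mul_of_nonneg_right (Mo_diag hA hW w) (norm_nonneg _)
  have h3 : ‖∑ u ∈ Finset.univ.erase w, Gr A W w u * ((ev W u : ℝ) : ℂ) * y u‖ ≤
      ∑ u ∈ Finset.univ.erase w, ‖Gr A W w u‖ * ev W u * ‖y u‖ := by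
    refine (norm_sum_le _ _).trans (le_of_eq (Finset.sum_congr rfl fun u _ => ?_))
    rw [norm_mul, norm_mul, Complex.norm_real, Real.norm_eq_abs, abs_of_pos (ev_pos hW u)]
  rw [← add_assoc]
  exact (norm_add_le _ _).trans (add_le_add h1 h3)

/-- the `λ`-sum of the middle sites which are really used -/
noncomputable def lamI (A : Matrix ι ι ℝ) (W : ι → ℂ) (α : ι → ι → ℝ) (ε2 : ℝ) (w x : ι) : ℝ := by
  classical
  exact ∑ u ∈ Finset.univ.filter (fun u => u ≠ w ∧ u ≠ x ∧ α u x ≠ 0 ∧ ε2 ≤ kap A W w u),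
    ev W u * mm A W u * (kap A W w u * kap A W u x)

open Classical in
theorem term_ind (hA : A.IsSymm) (hW : ∀ x, (W x).im < 0) (S : Finset ι) {ε1 ε2 t : ℝ}
    (h1 : 0 < ε1) (h2 : 0 < ε2) (ht : 0 < t) {ρ b a : ℝ} (hρ : 0 ≤ ρ) (hb : 0 ≤ b) {w u x : ι}
    (huw : u ≠ w) (hu : b ≠ 0 → u ≠ x ∧ a ≠ 0 ∧ ε1 ≤ kap A W u x) :
    ρ * (‖Gr A W w u‖ * ev W u * b) ≤
      4 / (ε1 * ε2) * ρ ^ 2 * (if w ∈ S then (if u ≠ w ∧ u ≠ x ∧ a ≠ 0 ∧ ε2 ≤ kap A W w u then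
        ev W u * mm A W u * (kap A W w u * kap A W u x) else 0) else 0) +
      1 / 16 * (ev W u * KK A W w u * b ^ 2 / mm A W u) +
      t * ε1 / 8 * ρ ^ 2 * (if ε1 ≤ kap A W u x then ev W u * mm A W u else 0) +
      2 / (t * ε1) * (if w ≠ u ∧ (w ∉ S ∨ kap A W w u < ε2) then
        ev W u * KK A W w u * b ^ 2 / mm A W u else 0) := by
  have hm := mm_pos hA hW u
  have he := ev_pos hW u
  have hK := KK_nonneg (A := A) (W := W) w u
  have hk1 := kap_nonneg hA hW w u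
  have hk2 := kap_nonneg hA hW u x
  have n1 : 0 ≤ (if w ∈ S then (if u ≠ w ∧ u ≠ x ∧ a ≠ 0 ∧ ε2 ≤ kap A W w u then
        ev W u * mm A W u * (kap A W w u * kap A W u x) else 0) else 0) := by
    split_ifs <;> positivity
  have n3 : 0 ≤ (if ε1 ≤ kap A W u x then ev W u * mm A W u else 0) := by
    split_ifs <;> positivity
  have n4 : 0 ≤ (if w ≠ u ∧ (w ∉ S ∨ kap A W w u < ε2) then
        ev W u * KK A W w u * b ^ 2 / mm A W u else 0) := by
    split_ifs <;> positivity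
  have n2 : 0 ≤ ev W u * KK A W w u * b ^ 2 / mm A W u := by positivity
  by_cases hb0 : b = 0
  · subst hb0
    rw [mul_zero, mul_zero]
    positivity
  obtain ⟨hux, ha, hk⟩ := hu hb0
  have hKK : ‖Gr A W w u‖ ^ 2 = KK A W w u := rfl
  by_cases hw : w ∉ S ∨ kap A W w u < ε2
  · -- weak or static
    have g1 : ρ * (‖Gr A W w u‖ * ev W u * b) ≤
        t * ε1 / 8 * ρ ^ 2 * (ev W u * mm A W u) +
        2 / (t * ε1) * (ev W u * KK A W w u * b ^ 2 / mm A W u) := by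
      apply amgm_sq (by positivity) (by positivity)
      rw [← hKK]
      apply le_of_eq
      field_simp
      ring
    rw [if_pos hk, if_pos (show w ≠ u ∧ (w ∉ S ∨ kap A W w u < ε2) from ⟨huw.symm, hw⟩)]
    have g2 : 0 ≤ 4 / (ε1 * ε2) * ρ ^ 2 * (if w ∈ S then
        (if u ≠ w ∧ u ≠ x ∧ a ≠ 0 ∧ ε2 ≤ kap A W w u then
        ev W u * mm A W u * (kap A W w u * kap A W u x) else 0) else 0) := by positivity
    linarith
  · -- strong
    obtain ⟨hwS, hw'⟩ := not_or.1 hw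
    rw [not_not] at hwS
    have hw' := not_lt.1 hw'
    have g1 : ρ * (‖Gr A W w u‖ * ev W u * b) ≤
        4 / (ε1 * ε2) * ρ ^ 2 * (ev W u * mm A W u * (kap A W w u * kap A W u x)) +
        1 / 16 * (ev W u * KK A W w u * b ^ 2 / mm A W u) := by
      apply amgm_sq (by positivity) (by positivity)
      rw [← hKK]
      have e1 : 4 * (4 / (ε1 * ε2) * ρ ^ 2 * (ev W u * mm A W u *
          (kap A W w u * kap A W u x))) * (1 / 16 * (ev W u * ‖Gr A W w u‖ ^ 2 * b ^ 2 /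
          mm A W u)) = (ρ * (‖Gr A W w u‖ * ev W u * b)) ^ 2 *
          ((kap A W w u * kap A W u x) / (ε1 * ε2)) := by
        field_simp
        ring
      rw [e1]
      have e2 : 1 ≤ (kap A W w u * kap A W u x) / (ε1 * ε2) := by
        rw [one_le_div (mul_pos h1 h2), mul_comm ε1 ε2]
        exact mul_le_mul hw' hk h1.le hk1
      exact le_mul_of_one_le_right (sq_nonneg _) e2
    rw [if_pos hwS, if_pos (show u ≠ w ∧ u ≠ x ∧ a ≠ 0 ∧ ε2 ≤ kap A W w u from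
      ⟨huw, hux, ha, hw'⟩)]
    have g3 : 0 ≤ t * ε1 / 8 * ρ ^ 2 * (if ε1 ≤ kap A W u x then ev W u * mm A W u else 0) := by
      positivity
    have g4 : 0 ≤ 2 / (t * ε1) * (if w ≠ u ∧ (w ∉ S ∨ kap A W w u < ε2) then
        ev W u * KK A W w u * b ^ 2 / mm A W u else 0) := by positivity
    linarith

open Classical in
/-- pair bound, every `w`, `x` -/
theorem pair_ind (hA : A.IsSymm) (hW : ∀ x, (W x).im < 0) (f : ι → ℝ) (S : Finset ι)
    (α : ι → ι → ℝ) {ε1 ε2 t : ℝ} (h1 : 0 < ε1) (h2 : 0 < ε2) (ht : 0 < t)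
    (hα : ∀ u x, α u x ≠ 0 → ε1 ≤ kap A W u x) {w x : ι} {ρ : ℝ} (hρ : 0 ≤ ρ) :
    ρ * ‖(Mo A W *ᵥ (Y1 A W f α x)) w‖ ≤
      1 / ε1 * (if α w x ≠ 0 then kap A W w x * ρ ^ 2 else 0) + ‖Y1 A W f α x w‖ ^ 2 / 16 +
      4 / (ε1 * ε2) * (if w ∈ S then ρ ^ 2 * lamI A W α ε2 w x else 0) +
      1 / 16 * ∑ u, ev W u * KK A W w u * ‖Y1 A W f α x u‖ ^ 2 / mm A W u +
      t / 8 * ρ ^ 2 +
      2 / (t * ε1) * ∑ u, (if w ≠ u ∧ (w ∉ S ∨ kap A W w u < ε2) then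
        ev W u * KK A W w u * ‖Y1 A W f α x u‖ ^ 2 / mm A W u else 0) := by
  have hY : ∀ u, ‖Y1 A W f α x u‖ ≠ 0 → u ≠ x ∧ α u x ≠ 0 ∧ ε1 ≤ kap A W u x := by
    intro u hu
    have h3 : α u x ≠ 0 := by
      intro h
      apply hu
      rw [Y1, h]
      simp
    refine ⟨?_, h3, hα u x h3⟩
    rintro rfl
    apply hu
    rw [Y1, Yc, sub_self]
    simp
  have hk := kap_nonneg hA hW w x
  -- first part
  have ga : ρ * (1 / 2 * ‖Y1 A W f α x w‖) ≤
      1 / ε1 * (if α w x ≠ 0 then kap A W w x * ρ ^ 2 else 0) + ‖Y1 A W f α x w‖ ^ 2 / 16 := by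
    have n0 : 0 ≤ (if α w x ≠ 0 then kap A W w x * ρ ^ 2 else 0) := by
      split_ifs <;> positivity
    apply amgm_sq (by positivity) (by positivity)
    by_cases hb : ‖Y1 A W f α x w‖ = 0
    · rw [hb]
      simp
    · have h3 := hY w hb
      rw [if_pos h3.2.1]
      have e1 : 4 * (1 / ε1 * (kap A W w x * ρ ^ 2)) * (‖Y1 A W f α x w‖ ^ 2 / 16) =
          (ρ * (1 / 2 * ‖Y1 A W f α x w‖)) ^ 2 * (kap A W w x / ε1) := by
        field_simp
        ring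
      rw [e1]
      exact le_mul_of_one_le_right (sq_nonneg _) ((one_le_div h1).2 h3.2.2)
  -- second part
  have gb : ρ * ∑ u ∈ Finset.univ.erase w, ‖Gr A W w u‖ * ev W u * ‖Y1 A W f α x u‖ ≤
      ∑ u, (4 / (ε1 * ε2) * ρ ^ 2 * (if w ∈ S then
        (if u ≠ w ∧ u ≠ x ∧ α u x ≠ 0 ∧ ε2 ≤ kap A W w u then
        ev W u * mm A W u * (kap A W w u * kap A W u x) else 0) else 0) +
      1 / 16 * (ev W u * KK A W w u * ‖Y1 A W f α x u‖ ^ 2 / mm A W u) +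
      t * ε1 / 8 * ρ ^ 2 * (if ε1 ≤ kap A W u x then ev W u * mm A W u else 0) +
      2 / (t * ε1) * (if w ≠ u ∧ (w ∉ S ∨ kap A W w u < ε2) then
        ev W u * KK A W w u * ‖Y1 A W f α x u‖ ^ 2 / mm A W u else 0)) := by
    rw [Finset.mul_sum]
    refine (Finset.sum_le_sum fun u hu => term_ind hA hW S h1 h2 ht hρ (norm_nonneg _)
      (Finset.ne_of_mem_erase hu) (hY u)).trans
      (Finset.sum_le_sum_of_subset_of_nonneg (Finset.erase_subset _ _) fun u _ _ => ?_)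
    have hm := mm_pos hA hW u
    have he := ev_pos hW u
    have hK := KK_nonneg (A := A) (W := W) w u
    have hk1 := kap_nonneg hA hW w u
    have hk2 := kap_nonneg hA hW u x
    have n1 : 0 ≤ (if w ∈ S then (if u ≠ w ∧ u ≠ x ∧ α u x ≠ 0 ∧ ε2 ≤ kap A W w u then
        ev W u * mm A W u * (kap A W w u * kap A W u x) else 0) else 0) := by
      split_ifs <;> positivity
    have n3 : 0 ≤ (if ε1 ≤ kap A W u x then ev W u * mm A W u else 0) := by
      split_ifs <;> positivity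
    have n4 : 0 ≤ (if w ≠ u ∧ (w ∉ S ∨ kap A W w u < ε2) then
        ev W u * KK A W w u * ‖Y1 A W f α x u‖ ^ 2 / mm A W u else 0) := by
      split_ifs <;> positivity
    positivity
  rw [Finset.sum_add_distrib, Finset.sum_add_distrib, Finset.sum_add_distrib, ← Finset.mul_sum,
    ← Finset.mul_sum, ← Finset.mul_sum, ← Finset.mul_sum] at gb
  have hl : ∑ u, (if w ∈ S then (if u ≠ w ∧ u ≠ x ∧ α u x ≠ 0 ∧ ε2 ≤ kap A W w u then
        ev W u * mm A W u * (kap A W w u * kap A W u x) else 0) else 0) =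
      if w ∈ S then lamI A W α ε2 w x else 0 := by
    by_cases hwS : w ∈ S
    · simp only [if_pos hwS]
      rw [lamI, ← Finset.sum_filter]
    · simp only [if_neg hwS, Finset.sum_const_zero]
  have hs := mul_le_mul_of_nonneg_left (strong_mass hA hW h1 x)
    (show 0 ≤ t * ε1 / 8 * ρ ^ 2 by positivity)
  have hs2 : t * ε1 / 8 * ρ ^ 2 * (1 / ε1) = t / 8 * ρ ^ 2 := by
    field_simp
  rw [hs2] at hs
  rw [hl] at gb
  have gv := mul_le_mul_of_nonneg_left (V_le' hA hW (Y1 A W f α x) w) hρ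
  rw [mul_add] at gv
  have g5 : 4 / (ε1 * ε2) * ρ ^ 2 * (if w ∈ S then lamI A W α ε2 w x else 0) =
      4 / (ε1 * ε2) * (if w ∈ S then ρ ^ 2 * lamI A W α ε2 w x else 0) := by
    split_ifs <;> ring
  linarith

open Classical in
theorem weak_ind (hA : A.IsSymm) (hW : ∀ x, (W x).im < 0) (b : ι → ℝ) (S : Finset ι) (ε2 : ℝ) :
    ∑ w, ev W w * ∑ u, (if w ≠ u ∧ (w ∉ S ∨ kap A W w u < ε2) then
        ev W u * KK A W w u * b u ^ 2 / mm A W u else 0) =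
      ∑ u, ev W u * b u ^ 2 * Pst A W S ε2 u := by
  simp only [Finset.mul_sum]
  rw [Finset.sum_comm]
  refine Finset.sum_congr rfl fun u _ => ?_
  rw [Pst, Finset.sum_filter, Finset.mul_sum]
  refine Finset.sum_congr rfl fun w _ => ?_
  by_cases h : w ≠ u ∧ (w ∉ S ∨ kap A W w u < ε2)
  · rw [if_pos h, if_pos h, PP, KK_symm hA w u, ev, ev]
    ring
  · rw [if_neg h, if_neg h, mul_zero, mul_zero]

omit [DecidableEq ι] in
theorem lin6 (e F1 F2 F3 F4 F5 F6 : ι → ℝ) (c1 c3 c5 c6 : ℝ) :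
    ∑ w, e w * (c1 * F1 w + F2 w / 16 + c3 * F3 w + 1 / 16 * F4 w + c5 * F5 w + c6 * F6 w) =
      c1 * ∑ w, e w * F1 w + (1 / 16) * ∑ w, e w * F2 w + c3 * ∑ w, e w * F3 w +
      1 / 16 * ∑ w, e w * F4 w + c5 * ∑ w, e w * F5 w + c6 * ∑ w, e w * F6 w := by
  simp only [Finset.mul_sum, ← Finset.sum_add_distrib]
  refine Finset.sum_congr rfl fun w _ => ?_
  ring

open Classical in
/-- **one column**, any `x` -/
theorem col_ind (hA : A.IsSymm) (hW : ∀ x, (W x).im < 0) (f : ι → ℝ) (S : Finset ι)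
    (α : ι → ι → ℝ) (h0 : ∀ u x, 0 ≤ α u x) (h1 : ∀ u x, α u x ≤ 1) {ε1 ε2 th : ℝ}
    (hε1 : 0 < ε1) (hε2 : 0 < ε2) (hth : 0 < th)
    (hα : ∀ u x, α u x ≠ 0 → ε1 ≤ kap A W u x) (x : ι) :
    ∑ w, ev W w * (α w x * (KK A W w x * (f w - f x) ^ 2)) ≤
      8 / ε1 * ∑ w, ev W w * (if α w x ≠ 0 then kap A W w x * ‖Tm A W f w x‖ ^ 2 else 0) +
      32 / (ε1 * ε2) * ∑ w ∈ S, ev W w * (‖Tm A W f w x‖ ^ 2 * lamI A W α ε2 w x) +
      th * ∑ w, ev W w * (KK A W w x * (f w - f x) ^ 2) +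
      4 / (th * ε1) * ∑ u, ev W u * (α u x * (KK A W u x * (f u - f x) ^ 2)) *
        Pst A W S ε2 u := by
  set N := ∑ w, ev W w * (α w x * (KK A W w x * (f w - f x) ^ 2)) with hN
  set b : ι → ℝ := fun u => ‖Y1 A W f α x u‖ with hb
  set v : ι → ℝ := fun w => ‖(Mo A W *ᵥ (Y1 A W f α x)) w‖ with hv
  set ρ : ι → ℝ := fun w => ‖Tm A W f w x‖ with hρ
  have hb2 : ∀ u, b u ^ 2 ≤ α u x * (KK A W u x * (f u - f x) ^ 2) := by
    intro u
    rw [hb]
    simp only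
    rw [Y1_norm_sq]
    refine mul_le_mul_of_nonneg_right ?_ (mul_nonneg (KK_nonneg _ _) (sq_nonneg _))
    have := h0 u x
    have := h1 u x
    nlinarith
  have hbN : ∑ u, ev W u * b u ^ 2 ≤ N :=
    Finset.sum_le_sum fun u _ => mul_le_mul_of_nonneg_left (hb2 u) (ev_pos hW u).le
  have hPw : ∀ u, 0 ≤ Pst A W S ε2 u := fun u =>
    Finset.sum_nonneg fun w _ => PP_nonneg hA hW u w
  have hP := pairing hA hW f α x
  rw [← hN] at hP
  have ht : 0 < 4 * th := by positivity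
  have hpt : ∀ w, ρ w * v w ≤
      1 / ε1 * (if α w x ≠ 0 then kap A W w x * ρ w ^ 2 else 0) + b w ^ 2 / 16 +
      4 / (ε1 * ε2) * (if w ∈ S then ρ w ^ 2 * lamI A W α ε2 w x else 0) +
      1 / 16 * (∑ u, ev W u * KK A W w u * b u ^ 2 / mm A W u) +
      4 * th / 8 * ρ w ^ 2 +
      2 / (4 * th * ε1) * ∑ u, (if w ≠ u ∧ (w ∉ S ∨ kap A W w u < ε2) then
        ev W u * KK A W w u * b u ^ 2 / mm A W u else 0) := fun w =>
    pair_ind hA hW f S α hε1 hε2 ht hα (w := w) (x := x) (norm_nonneg (Tm A W f w x))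
  have hsum := Finset.sum_le_sum fun w (_ : w ∈ Finset.univ) =>
    mul_le_mul_of_nonneg_left (hpt w) (ev_pos hW w).le
  have hmid := mid_sum hA hW b
  have hweak := weak_ind hA hW b S ε2
  have hrow : ∑ w, ev W w * ρ w ^ 2 = (1 / 4) * ∑ w, ev W w * (KK A W w x * (f w - f x) ^ 2) :=
    row_T hA hW f x
  have hexp : ∑ w, ev W w * (1 / ε1 * (if α w x ≠ 0 then kap A W w x * ρ w ^ 2 else 0) +
      b w ^ 2 / 16 +
      4 / (ε1 * ε2) * (if w ∈ S then ρ w ^ 2 * lamI A W α ε2 w x else 0) +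
      1 / 16 * (∑ u, ev W u * KK A W w u * b u ^ 2 / mm A W u) +
      4 * th / 8 * ρ w ^ 2 +
      2 / (4 * th * ε1) * ∑ u, (if w ≠ u ∧ (w ∉ S ∨ kap A W w u < ε2) then
        ev W u * KK A W w u * b u ^ 2 / mm A W u else 0)) =
      1 / ε1 * ∑ w, ev W w * (if α w x ≠ 0 then kap A W w x * ρ w ^ 2 else 0) +
      (1 / 16) * ∑ w, ev W w * b w ^ 2 +
      4 / (ε1 * ε2) * ∑ w, ev W w * (if w ∈ S then ρ w ^ 2 * lamI A W α ε2 w x else 0) +
      1 / 16 * ∑ w, ev W w * (∑ u, ev W u * KK A W w u * b u ^ 2 / mm A W u) +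
      4 * th / 8 * ∑ w, ev W w * ρ w ^ 2 +
      2 / (4 * th * ε1) * ∑ w, ev W w * ∑ u, (if w ≠ u ∧ (w ∉ S ∨ kap A W w u < ε2) then
        ev W u * KK A W w u * b u ^ 2 / mm A W u else 0) := by
    exact lin6 (ev W) _ _ _ _ _ _ _ _ _ _
  rw [hexp, hmid, hweak, hrow] at hsum
  have hS : ∑ w, ev W w * (if w ∈ S then ρ w ^ 2 * lamI A W α ε2 w x else 0) =
      ∑ w ∈ S, ev W w * (‖Tm A W f w x‖ ^ 2 * lamI A W α ε2 w x) := by
    rw [← Finset.sum_filter_add_sum_filter_not Finset.univ (· ∈ S)]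
    have e1 : ∑ w ∈ Finset.univ.filter (fun w => ¬ w ∈ S),
        ev W w * (if w ∈ S then ρ w ^ 2 * lamI A W α ε2 w x else 0) = 0 := by
      refine Finset.sum_eq_zero fun w hw => ?_
      rw [if_neg (Finset.mem_filter.1 hw).2, mul_zero]
    rw [e1, add_zero]
    have e2 : Finset.univ.filter (fun w => w ∈ S) = S := by
      ext w; simp
    rw [e2]
    refine Finset.sum_congr rfl fun w hw => ?_
    rw [if_pos hw]
  rw [hS] at hsum
  have hwk : ∑ u, ev W u * b u ^ 2 * Pst A W S ε2 u ≤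
      ∑ u, ev W u * (α u x * (KK A W u x * (f u - f x) ^ 2)) * Pst A W S ε2 u :=
    Finset.sum_le_sum fun u _ => mul_le_mul_of_nonneg_right
      (mul_le_mul_of_nonneg_left (hb2 u) (ev_pos hW u).le) (hPw u)
  have hc : 0 ≤ 2 / (4 * th * ε1) := by positivity
  have hwk2 := mul_le_mul_of_nonneg_left hwk hc
  have hfin := hP.trans hsum
  have q1 : 4 / (th * ε1) = 8 * (2 / (4 * th * ε1)) := by
    field_simp
    ring
  have q2 : 8 / ε1 = 8 * (1 / ε1) := by ring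
  have q3 : 32 / (ε1 * ε2) = 8 * (4 / (ε1 * ε2)) := by ring
  rw [q1, q2, q3]
  linarith [hfin, hwk2, hbN]

open Classical in
/-- **THE POINTWISE STATIC LEMMA WITH INDICATORS** (968's form; general profile, any set `S`) -/
theorem static_ind (hA : A.IsSymm) (hW : ∀ x, (W x).im < 0) (f : ι → ℝ) (S : Finset ι)
    (α : ι → ι → ℝ) (h0 : ∀ u x, 0 ≤ α u x) (h1 : ∀ u x, α u x ≤ 1) {ε1 ε2 th : ℝ}
    (hε1 : 0 < ε1) (hε2 : 0 < ε2) (hth : 0 < th)
    (hα : ∀ u x, α u x ≠ 0 → ε1 ≤ kap A W u x) :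
    ∑ x, ∑ u, ev W x * (ev W u * (α u x * (KK A W u x * (f u - f x) ^ 2))) ≤
      8 / ε1 * ∑ x, ∑ w, ev W x * (ev W w *
        (if α w x ≠ 0 then kap A W w x * ‖Tm A W f w x‖ ^ 2 else 0)) +
      32 / (ε1 * ε2) * ∑ x, ∑ w ∈ S, ev W x * (ev W w *
        (‖Tm A W f w x‖ ^ 2 * lamI A W α ε2 w x)) +
      th * ∑ x, ∑ w, ev W x * (ev W w * (KK A W w x * (f w - f x) ^ 2)) +
      4 / (th * ε1) * ∑ x, ∑ u, ev W x * (ev W u * (α u x *
        (KK A W u x * (f u - f x) ^ 2)) * Pst A W S ε2 u) := by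
  simp only [Finset.mul_sum (a := 8 / ε1), Finset.mul_sum (a := 32 / (ε1 * ε2)),
    Finset.mul_sum (a := th), Finset.mul_sum (a := 4 / (th * ε1))]
  rw [← Finset.sum_add_distrib, ← Finset.sum_add_distrib, ← Finset.sum_add_distrib]
  refine Finset.sum_le_sum fun x _ => ?_
  have h := mul_le_mul_of_nonneg_left (col_ind hA hW f S α h0 h1 hε1 hε2 hth hα x)
    (ev_pos hW x).le
  simp only [← Finset.mul_sum]
  refine h.trans (le_of_eq ?_)
  ring

end P365T2.StatF3
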